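import Vale.Agent.N144.P.Two
import Vale.Agent.N144.C.Sqrt
import Vale.Agent.N144.DefsS
import Vale.Agent.P144Y.Main
import Vale.Agent.P144Q.Cm

/-!
From the diamond to the plane: locally uniform convergence and covariance under similarities.
-/

namespace Vale.Agent.N144.P

open Finset Filter Topology MeasureTheory Vale.Agent.P144 Vale.Agent.P144P Vale.Agent.N144.C
open Vale.Agent.P144.H170 (pt)
open Vale.Agent.P144.H436 (nn)

/-- The limits along moving points exist in the diamond. -/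
def SDiaU : Prop := ∀ J > (0 : ℝ), ∀ p, Good Dia p → ∃ c, MLim (crit J Dia none) p c

/-- Covariance under the automorphisms of the diamond. -/
def SDiaC : Prop := ∀ J > (0 : ℝ), ∀ φ, Bih Dia Dia φ → ∀ p, Good Dia p → ∀ c c' : ℝ,
  Lim (crit J Dia none) p c → Lim (crit J Dia none) (im φ p) c' → c = fac φ p * c'

theorem convex_Dia : Convex ℝ Dia := by
  intro z hz w hw s t hs ht hst
  have h1 : |z.re| + |z.im| < 1 := hz
  have h2 : |w.re| + |w.im| < 1 := hw
  show |(s • z + t • w).re| + |(s • z + t • w).im| < 1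
  simp only [Complex.add_re, Complex.add_im, Complex.smul_re, Complex.smul_im, smul_eq_mul]
  have a1 := abs_add_le (s * z.re) (t * w.re)
  have a2 := abs_add_le (s * z.im) (t * w.im)
  rw [abs_mul, abs_mul, abs_of_nonneg hs, abs_of_nonneg ht] at a1 a2
  rcases hs.eq_or_lt with rfl | hs'
  · obtain rfl : t = 1 := by linarith
    linarith
  · nlinarith

theorem nice_Dia : P144Y.Nice Dia none :=
  ⟨convex_Dia.isConnected ⟨0, H436.Dia_zero⟩, Or.inl ⟨Or.inr (Or.inl
    ⟨H170.Dia_open', H436.Dia_bounded, convex_Dia⟩), Or.inl rfl⟩⟩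

theorem mv_const (p : Pts) : Mv (𝓝[>] (0 : ℝ)) (fun a => a) p (fun _ => p.x) fun _ => p.y :=
  ⟨tendsto_id, fun _ => tendsto_const_nhds, fun _ => tendsto_const_nhds⟩

theorem mlim_lim {E : Fam} {p : Pts} {c : ℝ} (h : MLim E p c) : Lim E p c :=
  h _ _ _ _ _ (mv_const p)

/-- Convergence along moving points is locally uniform convergence. -/
theorem locLim_of {D : Set ℂ} {E : Fam} {C : Pts → ℝ} (h : ∀ p, Good D p → MLim E p (C p)) :
    LocLim D E C := by
  intro n m j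
  rw [Metric.tendstoLocallyUniformlyOn_iff]
  intro ε hε z hz
  have h1 := Metric.tendsto_nhds.1 (h _ hz _ _ _ _ _ (mv_univ ⟨n, m, z.1, z.2, j⟩)) (ε / 3)
    (by positivity)
  obtain ⟨pa, h2, pb, h3, h4⟩ := eventually_prod_iff.1 h1
  refine ⟨{w | pb w} ∩ {z | Good D ⟨n, m, z.1, z.2, j⟩},
    inter_mem (mem_nhdsWithin_of_mem_nhds (by rw [nhds_prod_eq]; exact h3)) self_mem_nhdsWithin, ?_⟩
  filter_upwards [h2] with a ha w hw
  have h5 : dist (C ⟨n, m, w.1, w.2, j⟩) (C ⟨n, m, z.1, z.2, j⟩) ≤ ε / 3 :=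
    le_of_tendsto ((mlim_lim (h _ hw.2)).dist tendsto_const_nhds)
      (h2.mono fun b hb => (h4 hb hw.1).le)
  have h6 := h4 ha hw.1
  have h7 := dist_triangle_right (C ⟨n, m, w.1, w.2, j⟩) (corr a (E a) ⟨n, m, w.1, w.2, j⟩)
    (C ⟨n, m, z.1, z.2, j⟩)
  have h8 : dist (corr a (E a) ⟨n, m, w.1, w.2, j⟩) (C ⟨n, m, z.1, z.2, j⟩) < ε / 3 := h6
  linarith

theorem cN_crit (J : ℝ) (p : Pts) {a R : ℝ} (ha : 0 < a) (hR : 0 < R) :
    cN J a (nn (a / R)) p = dl p R * corr (a / R) (crit J Dia none (a / R)) (shr p R) := by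
  rw [cN_dl J _ p ha hR]
  unfold cN crit inDom
  rw [H436.disc_Dia (div_pos ha hR)]
  rfl

theorem good_shr {p : Pts} (hp : Good Set.univ p) : ∀ᶠ R : ℝ in atTop, Good Dia (shr p R) := by
  filter_upwards [ev_good hp.2.2.2] with R h using ⟨hp.1, h⟩

section

variable {J : ℝ} (hJ : 0 < J) {E : Fam} (hE : PlaneFam J 0 (fun _ => 0) (Kc / J) E)

include hJ hE

theorem near_pt {a T R ε : ℝ} {q : Pts} (ha : 0 < a) (ha1 : a < 1) (hR : 0 < R) (hT : T + 1 ≤ R)
    (h : ∀ N N' : ℕ, T ≤ a * N → N ≤ N' → |cN J a N' q - cN J a N q| ≤ ε) :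
    |corr a (E a) q - dl q R * corr (a / R) (crit J Dia none (a / R)) (shr q R)| ≤ ε := by
  have k5 := nn_ge ha hR
  rw [← cN_crit J q ha hR]
  exact le_of_tendsto ((fix J hJ E hE a ha q).sub_const _).abs
    ((eventually_ge_atTop _).mono fun N' hN => h _ N' (by linarith) hN)

/-- The limits along moving points in the plane. -/
theorem plane_M (hU : SDiaU) {p : Pts} (hp : Good Set.univ p) {c : ℝ} (hc : Lim E p c) :
    MLim E p c := by
  intro ι l a x y hm
  rw [Metric.tendsto_nhds]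
  intro ε hε
  obtain ⟨T, hT⟩ := twoM J hJ p hp.2.2.2 (ε / 4) (by positivity)
  obtain ⟨R, h1, h2, hR⟩ := ((good_shr hp).and ((eventually_ge_atTop (T + 1)).and
    (eventually_gt_atTop 0))).exists
  obtain ⟨r, hr⟩ := hU J hJ _ h1
  have key : ∀ {ι : Type} {l : Filter ι} {a : ι → ℝ} {x : ι → Fin p.n → ℂ} {y : ι → Fin p.m → ℂ},
      Mv l a p x y → ∀ᶠ k in l, |corr (a k) (E (a k)) (mv p (x k) (y k)) - dl p R * r| ≤
        ε / 4 + ε / 8 := by
    intro ι l a x y hm
    have h3 := Metric.tendsto_nhds.1 ((hr _ _ _ _ _ (mv_shr hm hR)).const_mul (dl p R)) (ε / 8)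
      (by positivity)
    filter_upwards [hT _ _ _ _ _ hm, h3, hm.a0.eventually (ev_le (c := 1 / 2) (by norm_num))] with
      k k1 k2 k3
    have k4 := near_pt hJ hE k3.1 (by linarith [k3.2]) hR h2 k1
    rw [Real.dist_eq] at k2
    exact (abs_sub_le _ _ _).trans (add_le_add k4 k2.le)
  have h4 : |c - dl p R * r| ≤ ε / 4 + ε / 8 :=
    le_of_tendsto (hc.sub_const _).abs (key (mv_const p))
  filter_upwards [key hm] with k hk
  rw [Real.dist_eq]
  rw [abs_sub_comm] at h4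
  linarith [abs_sub_le (corr (a k) (E (a k)) (mv p (x k) (y k))) (dl p R * r) c]

/-- Locally uniform convergence in the plane. -/
theorem plane_U (hU : SDiaU) {C : Pts → ℝ} (hC : ∀ p, Good Set.univ p → Lim E p (C p)) :
    LocLim Set.univ E C :=
  locLim_of fun p hp => plane_M hJ hE hU hp (hC p hp)

/-- The limits in large diamonds tend to the limit in the plane. -/
theorem to_plane (hU : SDiaU) {q : Pts} (hq : Good Set.univ q) {c : ℝ} (hc : Lim E q c)
    {x : ℝ → Fin q.n → ℂ} {y : ℝ → Fin q.m → ℂ} {r : ℝ → ℝ}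
    (hx : ∀ i, Tendsto (fun R => x R i) atTop (𝓝 (q.x i)))
    (hy : ∀ i, Tendsto (fun R => y R i) atTop (𝓝 (q.y i)))
    (hr : ∀ᶠ R in atTop, Lim (crit J Dia none) (shr (mv q (x R) (y R)) R) (r R)) :
    Tendsto (fun R => dl q R * r R) atTop (𝓝 c) := by
  rw [Metric.tendsto_nhds]
  intro ε hε
  obtain ⟨T, hT⟩ := twoM J hJ q hq.2.2.2 (ε / 4) (by positivity)
  have h1 := Metric.tendsto_nhds.1 (plane_M hJ hE hU hq hc _ _ _ _ _ (mv_univ q)) (ε / 4)
    (by positivity)
  obtain ⟨pa, h2, pb, h3, h4⟩ := eventually_prod_iff.1 ((hT _ _ _ _ _ (mv_univ q)).and h1)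
  filter_upwards [((tendsto_pi_nhds.2 hx).prodMk (tendsto_pi_nhds.2 hy)).eventually h3, hr,
    eventually_ge_atTop (T + 1), eventually_gt_atTop 0] with R k1 k2 k3 hR
  have k4 : |dl q R * r R - c| ≤ ε / 4 + ε / 4 := by
    refine le_of_tendsto (((k2.comp (div_lim hR)).const_mul (dl q R)).sub_const c).abs ?_
    filter_upwards [h2, ev_le (c := 1 / 2) (by norm_num)] with a a1 a2
    obtain ⟨a3, a4⟩ := h4 a1 k1
    have a5 := near_pt hJ hE a2.1 (by linarith [a2.2]) hR k3 a3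
    rw [Real.dist_eq] at a4
    rw [abs_sub_comm] at a5
    exact (abs_sub_le _ _ _).trans (add_le_add a5 a4.le)
  rw [Real.dist_eq]
  linarith

theorem plane_dl {p : Pts} {R c c' : ℝ} (hR : 0 < R) (hc : Lim E p c) (hc' : Lim E (shr p R) c') :
    c = dl p R * c' := by
  refine tendsto_nhds_unique hc (((hc'.comp (div_lim hR)).const_mul _).congr' ?_)
  filter_upwards [self_mem_nhdsWithin] with a ha
  refine tendsto_nhds_unique (((fix J hJ E hE _ (div_pos ha hR) _).const_mul _).congr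
    fun N => (cN_dl J N p ha hR).symm) (fix J hJ E hE a ha p)

end

/-! ### Translations -/

/-- The shift of the configurations. -/
def shE (t : Site) : Config ≃ᵐ Config where
  toFun σ x := σ (x + t)
  invFun σ x := σ (x - t)
  left_inv σ := by funext x; simp
  right_inv σ := by funext x; simp
  measurable_toFun := measurable_pi_lambda _ fun _ => measurable_pi_apply _
  measurable_invFun := measurable_pi_lambda _ fun _ => measurable_pi_apply _

theorem fl_add {a : ℝ} (ha : 0 < a) (z : ℂ) (s : Site) : fl a (z + pt a s) = fl a z + s := by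
  have key : ∀ (t : ℝ) (k : ℤ), ⌊(t + a * k) / a⌋ = ⌊t / a⌋ + k := fun t k => by
    rw [add_div, mul_div_cancel_left₀ _ ha.ne', Int.floor_add_intCast]
  unfold fl pt
  ext
  · exact key _ _
  · exact key _ _

theorem corr_tr {μ : Measure Config} {s : Site} (hμ : μ.map (fun σ x => σ (x + s)) = μ) {a : ℝ}
    (ha : 0 < a) (p : Pts) : corr a (fun F => ∫ σ, F σ ∂μ)
      (mv p (fun i => p.x i + pt a s) fun i => p.y i + pt a s) = corr a (fun F => ∫ σ, F σ ∂μ) p := by
  have key : ∀ F : Config → ℝ, ∫ σ, F σ ∂μ = ∫ σ, F (fun x => σ (x + s)) ∂μ := fun F => by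
    conv_lhs => rw [← hμ]
    exact integral_map_equiv (shE s) F
  unfold corr
  simp only [fl_add ha]
  conv_rhs => rw [key]
  congr 1
  funext σ
  congr 1
  refine prod_congr rfl fun k _ => ?_
  conv_rhs => rw [key]
  simp only [add_right_comm _ s]

theorem plane_tr {J : ℝ} (hJ : 0 < J) {E : Fam} (hE : PlaneFam J 0 (fun _ => 0) (Kc / J) E)
    (hU : SDiaU) {p : Pts} (t : ℂ) (hp : Good Set.univ (im (fun z => z + t) p)) {c c' : ℝ}
    (hc : Lim E p c) (hc' : Lim E (im (fun z => z + t) p) c') : c = c' := by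
  have h1 := plane_M hJ hE hU hp hc' _ (𝓝[>] 0) (fun a => a)
    (fun a i => p.x i + pt a (fl a t)) (fun a i => p.y i + pt a (fl a t))
    ⟨tendsto_id, fun i => (AL.flt t).const_add _, fun i => (AL.flt t).const_add _⟩
  refine tendsto_nhds_unique hc (h1.congr' ?_)
  obtain ⟨μ, h2, h3⟩ := hE
  filter_upwards [self_mem_nhdsWithin] with a ha
  rw [show E a = fun F => ∫ σ, F σ ∂(μ a) from funext (h3 a)]
  exact corr_tr ((h2 a ha).2.1 _) ha p

/-! ### Rotations -/

/-- An automorphism of the diamond that turns the origin. -/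
theorem exists_aut {u : ℂ} (hu : ‖u‖ = 1) :
    ∃ ψ, Bih Dia Dia ψ ∧ ψ 0 = 0 ∧ HasDerivAt ψ u 0 := by
  have hc := convex_Dia.contractibleSpace ⟨0, H436.Dia_zero⟩
  have ho := H170.Dia_open'
  obtain ⟨g, h1, h2, h3, h4, h5⟩ := P153.TOP.RMT.exists_onto_disc ho
    (P144Q.M.rdom ho (SimplyConnectedSpace.ofContractible Dia))
    (P144Q.M.ne_univ H436.Dia_bounded) H436.Dia_zero
  have hb : Set.BijOn g Dia (Metric.ball 0 1) := h3 ▸ h2.bijOn_image
  obtain ⟨f, B⟩ := exists_bi ho Metric.isOpen_ball h1 hb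
  have u0 : u ≠ 0 := by rintro rfl; simp at hu
  have hm : Set.BijOn (fun z => u * z) (Metric.ball (0 : ℂ) 1) (Metric.ball 0 1) := by
    refine ⟨fun z hz => ?_, fun z _ w _ e => mul_left_cancel₀ u0 e, fun z hz => ⟨u⁻¹ * z, ?_, ?_⟩⟩
    · rwa [mem_ball_zero_iff, norm_mul, hu, one_mul, ← mem_ball_zero_iff]
    · rwa [mem_ball_zero_iff, norm_mul, norm_inv, hu, inv_one, one_mul, ← mem_ball_zero_iff]
    · exact mul_inv_cancel_left₀ u0 z
  have hf : Set.BijOn f (Metric.ball 0 1) Dia :=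
    Set.InvOn.bijOn (f' := g) ⟨B.ri, B.li⟩ B.gm B.fm
  have f0 : f 0 = 0 := by rw [← h5]; exact (B.li 0 H436.Dia_zero).trans h5.symm
  have dg : HasDerivAt g (deriv g 0) 0 := (h1.differentiableAt (ho.mem_nhds H436.Dia_zero)).hasDerivAt
  have df : HasDerivAt f (deriv f 0) 0 :=
    (B.gd.differentiableAt (Metric.ball_mem_nhds 0 one_pos)).hasDerivAt
  have e : deriv f 0 * deriv g 0 = 1 := by
    have k1 : HasDerivAt (f ∘ g) (deriv f 0 * deriv g 0) 0 := HasDerivAt.comp_of_eq 0 df dg h5.symm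
    refine k1.unique ((hasDerivAt_id (0 : ℂ)).congr_of_eventuallyEq ?_)
    filter_upwards [ho.mem_nhds H436.Dia_zero] with z hz using B.li z hz
  refine ⟨f ∘ (fun z => u * z) ∘ g, ⟨B.gd.comp (h1.const_mul u) (hm.comp hb).mapsTo,
    hf.comp (hm.comp hb)⟩, by simp [h5, f0], ?_⟩
  have k2 : HasDerivAt (f ∘ (fun z => u * z) ∘ g) (deriv f 0 * (u * deriv g 0)) 0 :=
    HasDerivAt.comp_of_eq 0 df (dg.const_mul u) (by simp [h5])
  convert k2 using 1
  linear_combination (-u) * e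

theorem good_im {D D' : Set ℂ} {φ : ℂ → ℂ} (h1 : Set.MapsTo φ D D') (h2 : Set.InjOn φ D) {p : Pts}
    (hp : Good D p) : Good D' (im φ p) := by
  refine ⟨hp.1, fun i => h1 (hp.2.1 i), fun i => h1 (hp.2.2.1 i), fun s t e => hp.2.2.2 ?_⟩
  rcases s with s | s <;> rcases t with t | t
  exacts [h2 (hp.2.1 s) (hp.2.1 t) e, h2 (hp.2.1 s) (hp.2.2.1 t) e,
    h2 (hp.2.2.1 s) (hp.2.1 t) e, h2 (hp.2.2.1 s) (hp.2.2.1 t) e]

theorem div_zero_lim (z : ℂ) : Tendsto (fun R : ℝ => z / R) atTop (𝓝 0) := by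
  have := (Complex.continuous_ofReal.tendsto _).comp (tendsto_inv_atTop_zero (𝕜 := ℝ))
  simpa [div_eq_mul_inv, Function.comp_def] using this.const_mul z

theorem blow {ψ : ℂ → ℂ} {u : ℂ} (h0 : ψ 0 = 0) (hd : HasDerivAt ψ u 0) (z : ℂ) :
    Tendsto (fun R : ℝ => R * ψ (z / R)) atTop (𝓝 (u * z)) := by
  have h1 := (hd.hasFDerivAt.restrictScalars ℝ).lim z
    (c := fun R : ℝ => R) (l := atTop) tendsto_norm_atTop_atTop
  simp only [zero_add, h0, sub_zero] at h1
  refine (h1.congr fun R => ?_).trans (le_of_eq ?_)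
  · rw [Complex.real_smul, Complex.real_smul, Complex.ofReal_inv, mul_comm _ z, div_eq_mul_inv]
  · simp [mul_comm]

theorem plane_rot {J : ℝ} (hJ : 0 < J) {E : Fam} (hE : PlaneFam J 0 (fun _ => 0) (Kc / J) E)
    (hU : SDiaU) (hC : SDiaC) {p : Pts} (hp : Good Set.univ p) {u : ℂ} (hu : ‖u‖ = 1) {c c' : ℝ}
    (hc : Lim E p c) (hc' : Lim E (im (fun z => u * z) p) c') : c = c' := by
  obtain ⟨ψ, hψ, h0, hd⟩ := exists_aut hu
  have u0 : u ≠ 0 := by rintro rfl; simp at hu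
  have hq : Good Set.univ (im (fun z => u * z) p) :=
    good_im (Set.mapsTo_univ _ _) (fun z _ w _ e => mul_left_cancel₀ u0 e) hp
  choose! r hl using fun q h => (hU J hJ q h).imp fun _ => mlim_lim
  have h1 := to_plane hJ hE hU hp hc (x := fun _ => p.x) (y := fun _ => p.y)
    (r := fun R => r (shr p R)) (fun _ => tendsto_const_nhds) (fun _ => tendsto_const_nhds)
    ((good_shr hp).mono fun R h => hl _ h)
  have h2 := to_plane hJ hE hU hq hc' (x := fun R i => R * ψ (p.x i / R))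
    (y := fun R i => R * ψ (p.y i / R)) (r := fun R => r (im ψ (shr p R)))
    (fun i => blow h0 hd _) (fun i => blow h0 hd _) (by
      filter_upwards [good_shr hp, eventually_gt_atTop 0] with R h hR
      have e : ∀ w : ℂ, R * w / R = w := fun w =>
        mul_div_cancel_left₀ _ (by exact_mod_cast hR.ne')
      have := hl _ (good_im hψ.b.mapsTo hψ.b.injOn h)
      unfold shr
      simp only [e]
      exact this)
  have h3 : ∀ z : ℂ, Tendsto (fun R : ℝ => ‖deriv ψ (z / R)‖) atTop (𝓝 1) := fun z => by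
    have := ((hψ.d.analyticAt (H170.Dia_open'.mem_nhds H436.Dia_zero)).deriv.continuousAt.tendsto.comp
      (div_zero_lim z)).norm
    rwa [hd.deriv, hu] at this
  have h4 : Tendsto (fun R : ℝ => fac ψ (shr p R)) atTop (𝓝 1) := by
    have := (tendsto_finsetProd univ fun i _ => (h3 (p.x i)).rpow_const
      (p := (1 / 8 : ℝ)) (Or.inl one_ne_zero)).mul (tendsto_finsetProd univ fun i _ => h3 (p.y i))
    simp only [Real.one_rpow, prod_const_one, mul_one] at this
    exact this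
  have h5 := h4.mul h2
  rw [one_mul] at h5
  refine tendsto_nhds_unique h1 (h5.congr' ?_)
  filter_upwards [good_shr hp] with R h
  rw [hC J hJ ψ hψ _ h _ _ (hl _ h) (hl _ (good_im hψ.b.mapsTo hψ.b.injOn h)), mul_left_comm]
  rfl

/-- Covariance under the similarities of the plane. -/
theorem plane_cov {J : ℝ} (hJ : 0 < J) {E : Fam} (hE : PlaneFam J 0 (fun _ => 0) (Kc / J) E)
    (hU : SDiaU) (hC : SDiaC) {p : Pts} (hp : Good Set.univ p) {w : ℂ} (hw : w ≠ 0) (t : ℂ)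
    {c c' : ℝ} (hc : Lim E p c) (hc' : Lim E (im (fun z => w * z + t) p) c') :
    c = (‖w‖ ^ (1 / 8 : ℝ)) ^ p.n * ‖w‖ ^ p.m * c' := by
  have h0 : 0 < ‖w‖ := norm_pos_iff.2 hw
  have h0' : ((‖w‖ : ℝ) : ℂ) ≠ 0 := by exact_mod_cast h0.ne'
  have g1 := shr_univ hp (inv_pos.2 h0)
  have hu : ‖w / ‖w‖‖ = 1 := by
    rw [norm_div, Complex.norm_real, norm_norm, div_self h0.ne']
  have u0 : w / ‖w‖ ≠ 0 := div_ne_zero hw h0'
  have g2 : Good Set.univ (im (fun z => w / ‖w‖ * z) (shr p ‖w‖⁻¹)) :=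
    good_im (Set.mapsTo_univ _ _) (fun z _ w _ e => mul_left_cancel₀ u0 e) g1
  have g3 := good_im (φ := fun z => z + t) (Set.mapsTo_univ _ _)
    (fun z _ w _ e => add_right_cancel e) g2
  obtain ⟨c1, k1⟩ := plane_all J hJ E hE _ g1
  obtain ⟨c2, k2⟩ := plane_all J hJ E hE _ g2
  have e : ∀ z : ℂ, w * z + t = w / ‖w‖ * (z / (‖w‖⁻¹ : ℝ)) + t := fun z => by
    push_cast
    field_simp
  simp only [e] at hc'
  rw [plane_dl hJ hE (inv_pos.2 h0) hc k1, plane_rot hJ hE hU hC g1 hu k1 k2,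
    plane_tr hJ hE hU t g3 k2 hc']
  unfold dl
  rw [inv_inv, Real.inv_rpow h0.le, Real.rpow_neg h0.le, inv_inv]

theorem fac_sim (w t : ℂ) (p : Pts) :
    fac (fun z => w * z + t) p = (‖w‖ ^ (1 / 8 : ℝ)) ^ p.n * ‖w‖ ^ p.m := by
  have : ∀ z : ℂ, deriv (fun z => w * z + t) z = w := fun z => by
    simp
  unfold fac
  simp only [this, prod_const, card_univ, Fintype.card_fin]

end Vale.Agent.N144.P
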