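import Vale.Agent.P144P.All

/-!
Bounds for the fermion kernels on the lattice, from the sums of squares away from the source.
-/

namespace Vale.Agent.N144.P

open Finset Vale.Agent.P144 Vale.Agent.P144P
open Vale.Agent.P144.H170 (Pt bx mem_bx bx_mono self_mem_bx)
open Vale.Agent.P144.AL (Lb)

/-- Sums of squares away from the source. -/
def Out (N : ℕ) (R : Multiset Site) (y : AL.Cn) (ρ : ℕ) (s : ℝ) : Prop :=
  ∀ (c : Pt) (r : ℕ) (T : Finset Pt), (∀ x ∈ T, x ∈ bx c r ∧ x ∉ bx y.2 ρ) →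
    ∑ x ∈ T, (kf N R y).sq x ≤ s * (r + 2)

theorem Out.nn {N : ℕ} {R : Multiset Site} {y : AL.Cn} {ρ : ℕ} {s : ℝ} (h : Out N R y ρ s) :
    0 ≤ s := by
  have := h 0 0 ∅ (by simp)
  simp only [sum_empty, Nat.cast_zero, zero_add] at this
  linarith

theorem Out.mono {N : ℕ} {R : Multiset Site} {y : AL.Cn} {ρ ρ' : ℕ} {s s' : ℝ}
    (h : Out N R y ρ s) (hρ : ρ ≤ ρ') (hs : s ≤ s') : Out N R y ρ' s' := fun c r T hT =>
  (h c r T fun x hx => ⟨(hT x hx).1, fun h' => (hT x hx).2 (bx_mono hρ h')⟩).trans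
    (mul_le_mul_of_nonneg_right hs (by positivity))

theorem out_src {N : ℕ} {R : Multiset Site} {u : Site} (hR : R.Nodup) (hu : u ∈ R)
    (hc : ∀ f ∈ R, f ≠ u → u ∉ AL.cnr f) (hin : ∀ f ∈ R, |f.1| + |f.2| + 4 ≤ (N : ℤ)) (ρ : ℕ) :
    Out N R (u, u) ρ (1152 * 5586) := fun c r _ hT =>
  (sum_le_sum_of_subset_of_nonneg (fun x hx => (hT x hx).1) fun x _ _ => Fld.sq_nn _ x).trans
    (src_sum hR hu hc hin c r)

theorem Out.pw {N : ℕ} {R : Multiset Site} {y : AL.Cn} {ρ : ℕ} {s : ℝ} (h : Out N R y ρ s)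
    (hc : y.1 ∈ AL.cnr y.2) (hy : y.1 ∈ dia N) {x : Pt} {r : ℕ} (hr : 0 < r)
    (hx : |x.1| + |x.2| + 8 * r + 6 ≤ N) (hR : ∀ f ∈ R, f ∉ bx x (4 * r + 3))
    (hv : y.2 ∉ bx x (4 * r + 3 + ρ)) : r * (kf N R y).sq x ≤ 240000 * s := by
  have h1 := P144P.pw (kf N R y) R x r hr (fun z hz => kf_rl R hc hy (by
      rw [mem_bx] at hz
      push_cast at hz
      rcases abs_cases x.1 with h1 | h1 <;> rcases abs_cases x.2 with h2 | h2 <;>
        rcases abs_cases z.1 with h3 | h3 <;> rcases abs_cases z.2 with h4 | h4 <;> lia)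
    (fun e => hv (by rw [e]; exact bx_mono (by lia) hz))
    (fun e => hv (by
      rw [e]
      rw [mem_bx] at hz ⊢
      simp only [Prod.fst_add, Prod.snd_add]
      push_cast at hz ⊢
      lia))) hR
  have h2 := h x (4 * r + 2) (bx x (4 * r + 2)) fun z hz => ⟨hz, fun hb => hv (by
    rw [mem_bx] at hz hb ⊢
    push_cast at hz hb ⊢
    lia)⟩
  have hr' : (1 : ℝ) ≤ r := by exact_mod_cast hr
  have hs := h.nn
  have h3 : (kf N R y).sq x ≤ 30000 / (r : ℝ) ^ 2 * (s * (8 * r)) := by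
    refine h1.trans (mul_le_mul_of_nonneg_left (h2.trans ?_) (by positivity))
    refine mul_le_mul_of_nonneg_left ?_ hs
    push_cast; linarith
  calc (r : ℝ) * (kf N R y).sq x ≤ r * (30000 / (r : ℝ) ^ 2 * (s * (8 * r))) :=
        mul_le_mul_of_nonneg_left h3 (by positivity)
    _ = 240000 * s := by field_simp; ring

theorem Out.ptw {N : ℕ} {R : Multiset Site} {y : AL.Cn} {ρ : ℕ} {s : ℝ} (h : Out N R y ρ s)
    (hc : y.1 ∈ AL.cnr y.2) {k : ℕ} (hρ : ρ + 4 ≤ k) (hN : 200 * k ≤ N) (h1 : y.1 ∈ bx 0 k)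
    (h2 : y.2 ∈ bx 0 k) (hR : ∀ f ∈ R, f ∈ bx 0 k) : Ptw (kf N R y) k (240000 * s) := by
  intro x hx hx'
  have h3 := bx_l1 hx
  have key : ∀ f ∈ bx 0 k, f ∉ bx x (4 * k + 3 + ρ) := fun f hf hb => hx' (by
    rw [mem_bx] at hf hb ⊢
    simp only [Prod.fst_zero, Prod.snd_zero] at hf ⊢
    push_cast at hb ⊢
    lia)
  exact h.pw hc (bx_dia h1 (by lia)) (by lia) (by push_cast at h3; lia)
    (fun f hf hb => key f (hR f hf) (bx_mono (by lia) hb)) (key _ h2)

theorem Tl_le (N : ℕ) (R : Multiset Site) (y : AL.Cn) {c : AL.Cn} (hc : c.1 ∈ AL.cnr c.2) :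
    AL.Tl (dia N) R [y] c ^ 2 ≤ (kf N R y).sq c.2 := by
  obtain ⟨v, f⟩ := c
  unfold Fld.sq kf
  simp only
  rcases AL.mem_cnr.1 hc with h | h | h | h <;> simp only at h <;> rw [h] <;> nlinarith [
    sq_nonneg (AL.Tl (dia N) R [y] (f, f)), sq_nonneg (AL.Tl (dia N) R [y] ((f.1 + 1, f.2), f)),
    sq_nonneg (AL.Tl (dia N) R [y] ((f.1, f.2 + 1), f)),
    sq_nonneg (AL.Tl (dia N) R [y] ((f.1 + 1, f.2 + 1), f))]

/-! ### The kernel at its own source -/

/-- The field of a function of the corners, seen from `v`. -/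
def cf (T : AL.Cn → ℝ) (v : Pt) : Fld :=
  ⟨fun x => T (x + v, x + v), fun x => T (((x + v).1 + 1, (x + v).2), x + v),
    fun x => T (((x + v).1, (x + v).2 + 1), x + v),
    fun x => T (((x + v).1 + 1, (x + v).2 + 1), x + v)⟩

section

variable (N : ℕ) (R : Multiset Site) (y : AL.Cn)

/-- The gauge that turns the cuts of the disorders below the source. -/
noncomputable def gy (i : ℤ) : ℝ := gg (fun f => f.2 ≤ y.2.2) R i

/-- The kernel with the disorders minus the kernel without. -/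
noncomputable def dT (c : AL.Cn) : ℝ :=
  gy R y y.1.1 * gy R y c.1.1 * AL.Tl (dia N) R [y] c - AL.Tl (dia N) 0 [y] c

theorem gy_sq (i : ℤ) : gy R y i * gy R y i = 1 := gg_sq _ _ _

theorem dT_eq (hy : y.1 ∈ dia N) (c : AL.Cn) : dT N R y c =
    gy R y y.1.1 * gy R y c.1.1 * AL.Sl (dia N) R [y] c - AL.Sl (dia N) 0 [y] c := by
  unfold dT
  by_cases h : c = y
  · subst h
    rw [AL.Sl_eq _ R [c] (List.nodup_singleton _) c, AL.Sl_eq _ 0 [c] (List.nodup_singleton _) c,
      Tl_self R hy, Tl_self 0 hy, gy_sq]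
    ring
  · rw [Sl_ne R _ h, Sl_ne 0 _ h]

theorem dT_sq (x : Pt) : (cf (dT N R y) y.2).sq x ≤
    2 * (kf N R y).sq (x + y.2) + 2 * (kf N 0 y).sq (x + y.2) := by
  have key : ∀ c, dT N R y c ^ 2 ≤
      2 * AL.Tl (dia N) R [y] c ^ 2 + 2 * AL.Tl (dia N) 0 [y] c ^ 2 := fun c => by
    unfold dT
    have h1 := gy_sq R y y.1.1
    have h2 := gy_sq R y c.1.1
    have e : (gy R y y.1.1 * gy R y c.1.1 * AL.Tl (dia N) R [y] c) ^ 2 =
        AL.Tl (dia N) R [y] c ^ 2 := by
      linear_combination (gy R y c.1.1 * AL.Tl (dia N) R [y] c) ^ 2 * h1 +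
        AL.Tl (dia N) R [y] c ^ 2 * h2
    nlinarith [sq_nonneg (gy R y y.1.1 * gy R y c.1.1 * AL.Tl (dia N) R [y] c +
      AL.Tl (dia N) 0 [y] c)]
  unfold Fld.sq cf kf
  simp only
  linarith [key (x + y.2, x + y.2), key (((x + y.2).1 + 1, (x + y.2).2), x + y.2),
    key (((x + y.2).1, (x + y.2).2 + 1), x + y.2),
    key (((x + y.2).1 + 1, (x + y.2).2 + 1), x + y.2)]

variable {N R y}

theorem dT_rl (hc : y.1 ∈ AL.cnr y.2) (hy : y.1 ∈ dia N) {m : ℕ} (hR : ∀ f ∈ R, f ∉ bx y.2 m)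
    {x : Pt} (hx : x ∈ bx 0 m) (hN : |(x + y.2).1| + |(x + y.2).2| + 2 ≤ N) :
    (cf (dT N R y) y.2).Rl 0 x := by
  have ht : AL.tauR R (x + y.2) = gy R y (x + y.2).1 * gy R y ((x + y.2).1 + 1) := by
    refine tau_gg fun f hf e => ?_
    have h1 := hR f hf
    rw [mem_bx] at hx h1
    simp only [Prod.fst_zero, Prod.snd_zero, Prod.fst_add, Prod.snd_add] at hx e ⊢
    lia
  have t0 : ∀ z, AL.tauR 0 z = 1 := fun z => AL.cutS_zero _
  have e1 : x + (0, 1) + y.2 = ((x + y.2).1, (x + y.2).2 + 1) := by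
    ext <;> simp only [Prod.fst_add, Prod.snd_add] <;> ring
  have e2 : x + (1, 0) + y.2 = ((x + y.2).1 + 1, (x + y.2).2) := by
    ext <;> simp only [Prod.fst_add, Prod.snd_add] <;> ring
  unfold Fld.Rl H170.Rel cf
  simp only [e1, e2, t0, one_mul]
  generalize x + y.2 = z at ht hN
  obtain ⟨i, j⟩ := z
  have hV := AL.Sl_V R [y] (one_ok hc hy) (edges hN).1
  have hH := AL.Tl_H R [y] (one_ok hc hy) (edges hN).2
  have hV' := AL.Sl_V 0 [y] (one_ok hc hy) (edges hN).1
  have hH' := AL.Tl_H 0 [y] (one_ok hc hy) (edges hN).2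
  rw [ht] at hV
  rw [t0] at hV'
  have g1 := gy_sq R y i
  have g2 := gy_sq R y (i + 1)
  simp only at hV g1 g2 ⊢
  refine ⟨?_, ?_, ?_, ?_⟩
  · rw [dT_eq N R y hy, dT_eq N R y hy, dT_eq N R y hy, hV.1, hV'.1]
    simp only
    linear_combination (-(gy R y y.1.1 * gy R y (i + 1) *
      AL.Sl (dia N) R [y] ((i + 1, j + 1), (i, j + 1)))) * g1
  · rw [dT_eq N R y hy, dT_eq N R y hy, dT_eq N R y hy, hV.2, hV'.2]
    simp only
    linear_combination (-(gy R y y.1.1 * gy R y i *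
      AL.Sl (dia N) R [y] ((i, j + 1), (i, j + 1)))) * g2
  · unfold dT
    rw [hH.1, hH'.1]
    ring
  · unfold dT
    rw [hH.2, hH'.2]
    ring

/-- The difference of the kernels at the source. -/
theorem dT_bd : ∃ K : ℝ, 0 < K ∧ ∀ (N r : ℕ) (R : Multiset Site) (y : AL.Cn) (s : ℝ),
    y.1 ∈ AL.cnr y.2 → y.1 ∈ dia N → 4 ≤ r → |y.2.1| + |y.2.2| + 140 * r ≤ N →
    (∀ f ∈ R, f ∉ bx y.2 (70 * r)) → Out N R y r s → Out N 0 y r s →
    r * dT N R y (y.2, y.2) ^ 2 ≤ K * s := by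
  obtain ⟨K, hK, hI⟩ := inn osc prod
  refine ⟨240000 * (K * (4 * 240000)), by positivity, fun N r R y s hc hy hr hN hR h1 h2 => ?_⟩
  have hs := h1.nn
  have hrl : ∀ x ∈ bx 0 (66 * r), (cf (dT N R y) y.2).Rl 0 x := fun x hx =>
    dT_rl hc hy (m := 70 * r) hR (bx_mono (by lia) hx) (by
      have := bx_l1 hx
      have := abs_add_le x.1 y.2.1
      have := abs_add_le x.2 y.2.2
      simp only [Prod.fst_add, Prod.snd_add]
      push_cast at *
      lia)
  have hp : Ptw (cf (dT N R y) y.2) r (4 * 240000 * s) := by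
    intro x hx hx'
    have k0 : |(x + y.2).1| + |(x + y.2).2| + 8 * r + 6 ≤ N := by
      have := bx_l1 hx
      have := abs_add_le x.1 y.2.1
      have := abs_add_le x.2 y.2.2
      simp only [Prod.fst_add, Prod.snd_add]
      push_cast at *
      lia
    have k1 : y.2 ∉ bx (x + y.2) (4 * r + 3 + r) := fun hb => hx' (by
      rw [mem_bx] at hb ⊢
      simp only [Prod.fst_zero, Prod.snd_zero, Prod.fst_add, Prod.snd_add] at hb ⊢
      push_cast at hb ⊢
      lia)
    have a1 := h1.pw hc hy (x := x + y.2) (r := r) (by lia) k0 (fun f hf hb => hR f hf (by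
      rw [mem_bx] at hb hx ⊢
      simp only [Prod.fst_zero, Prod.snd_zero, Prod.fst_add, Prod.snd_add] at hb hx ⊢
      push_cast at hb hx ⊢
      lia)) k1
    have a2 := h2.pw hc hy (x := x + y.2) (r := r) (by lia) k0 (by simp) k1
    have a3 := mul_le_mul_of_nonneg_left (dT_sq N R y x) (Nat.cast_nonneg (α := ℝ) r)
    linarith
  obtain ⟨-, i2⟩ := hI _ r 0 _ hr Multiset.nodup_zero (by simp) hrl hp
  have b1 := P144P.pw _ 0 0 r (by lia) (fun z hz => hrl z (bx_mono (by lia) hz)) (by simp)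
  have b2 := i2 0 (4 * r + 2) (bx_mono (by lia))
  have hr' : (4 : ℝ) ≤ r := by exact_mod_cast hr
  have b3 : (cf (dT N R y) y.2).sq 0 ≤
      30000 / (r : ℝ) ^ 2 * (K * (4 * 240000 * s) * (8 * r)) := by
    refine b1.trans (mul_le_mul_of_nonneg_left (b2.trans ?_) (by positivity))
    refine mul_le_mul_of_nonneg_left ?_ (by positivity)
    push_cast; linarith
  have b4 : dT N R y (y.2, y.2) ^ 2 ≤ (cf (dT N R y) y.2).sq 0 := by
    unfold Fld.sq cf
    simp only [zero_add]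
    nlinarith [sq_nonneg (dT N R y ((y.2.1 + 1, y.2.2), y.2)),
      sq_nonneg (dT N R y ((y.2.1, y.2.2 + 1), y.2)),
      sq_nonneg (dT N R y ((y.2.1 + 1, y.2.2 + 1), y.2))]
  calc (r : ℝ) * dT N R y (y.2, y.2) ^ 2
      ≤ r * (30000 / (r : ℝ) ^ 2 * (K * (4 * 240000 * s) * (8 * r))) :=
        mul_le_mul_of_nonneg_left (b4.trans b3) (by positivity)
    _ = _ := by field_simp; ring

end

/-! ### The weighted kernels -/

section

variable {n m : ℕ} (u : Fin n → Site) (v : Fin m → Site) (j : Fin m → Fin 2)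

/-- The positions of the points on the lattice. -/
structure Lt (k r : ℕ) : Prop where
  r4 : 4 ≤ r
  rk : 2 * r ≤ k
  uin : ∀ i, u i ∈ bx 0 k
  vin : ∀ l, v l ∈ bx 0 k ∧ v l + dir (j l) ∈ bx 0 k
  uu : ∀ i i', u i ∈ bx (u i') (70 * r) → i = i'
  uv : ∀ i l, u i ∉ bx (v l) (70 * r)
  vv : ∀ l l', v l ∈ bx (v l') (70 * r) → l = l'

/-- The sums of squares of all kernels. -/
def OutA (r N : ℕ) (a K : ℝ) : Prop :=
  (∀ y : Lb n m, nt y → Out N (AL.fcs (AL.srcs u)) (AL.cn 0 u v j y) r (K * sig a y)) ∧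
    ∀ l, Out N 0 (AL.eHi (v l) (j l)) r (K * a)

theorem sk_eq (w : Site) (i : Fin 2) : AL.sk (AL.srcs u) w i = AL.ep (AL.eLo w) (AL.eHi w i) *
    (gy (AL.fcs (AL.srcs u)) (AL.eHi w i) (w + dir i).1 *
      gy (AL.fcs (AL.srcs u)) (AL.eHi w i) w.1) := by
  unfold AL.sk gy gg AL.fcs AL.srcs
  congr 1
  rw [← Multiset.prod_map_mul, Multiset.map_coe, Multiset.prod_coe, List.map_map, List.map_map,
    List.map_map]
  congr 1
  refine List.map_congr_left fun z _ => ?_
  simp only [Function.comp]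
  unfold AL.ep AL.eLo AL.eHi dir
  by_cases hi : i = 0 <;>
    simp only [hi, if_true, if_false, Prod.fst_add, add_zero] <;>
    split_ifs <;> first | (exfalso; omega) | norm_num

variable {u v j} {k r : ℕ} (h : Lt u v j k r)

include h

theorem Lt.inj : Function.Injective u := fun i i' e => h.uu i i' (by rw [e]; exact self_mem_bx _ _)

theorem Lt.lat (hn : Even n) : Lat u v j k r :=
  ⟨by have := h.r4; have := h.rk; lia, by have := h.r4; lia, by have := h.rk; lia, h.uin, h.vin,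
    h.inj, hn, fun i l hi => h.uv i l (bx_mono (by have := h.r4; lia) hi)⟩

theorem Lt.sep {N : ℕ} (hN : 200 * k ≤ N) : AL.Sep N u v := by
  have := h.r4
  have := h.rk
  refine ⟨fun i => ?_, fun l => ?_, h.inj, fun l l' e => h.vv l l' ?_, fun i l e => h.uv i l ?_⟩
  · have := bx_l1 (h.uin i); lia
  · have := bx_l1 (h.vin l).1; lia
  · rw [e]; exact self_mem_bx _ _
  · rw [e]; exact self_mem_bx _ _

theorem Lt.src {N : ℕ} (hN : 200 * k ≤ N) (i : Fin n) :
    Out N (AL.fcs (AL.srcs u)) (u i, u i) r (1152 * 5586) := by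
  have := h.r4
  have := h.rk
  refine out_src (nodup_srcs _ h.inj) ((mem_srcs _).2 ⟨i, rfl⟩) (fun f hf hne hm => ?_)
    (fun f hf => ?_) r
  · obtain ⟨i', rfl⟩ := (mem_srcs _).1 hf
    refine hne (congrArg u (h.uu i i' ?_)).symm
    rw [mem_bx]
    rcases AL.mem_cnr.1 hm with e | e | e | e <;> rw [e] <;> push_cast <;> lia
  · obtain ⟨i', rfl⟩ := (mem_srcs _).1 hf
    have := bx_l1 (h.uin i')
    lia

variable {N : ℕ} {a K : ℝ} (hN : 200 * k ≤ N) (hO : OutA u v j r N a K)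

include hN hO

theorem Lt.ref (hn : Even n) : Ref u v j k N a (240000 * K) := by
  have := h.r4
  have := h.rk
  have hl := h.lat hn
  refine ⟨fun y hy => ?_, fun l => ?_⟩
  · rw [mul_assoc]
    exact (hO.1 y hy).ptw (AL.Sep.cn_cnr y) (by lia) hN (hl.cin hy).1 (hl.cin hy).2 hl.rin
  · rw [mul_assoc]
    exact (hO.2 l).ptw (AL.eHi_cnr _ _) (by lia) hN (h.vin l).2 (h.vin l).1 (by simp)

theorem Lt.en {l : Fin m} {x y : Lb n m} (hx : x = .lo l ∨ x = .hi l) (hy : nt y)
    (h1 : y ≠ .lo l) (h2 : y ≠ .hi l) :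
    r * AL.Wf (dia N) (AL.fcs (AL.srcs u)) [AL.cn N u v j x, AL.cn N u v j y] ^ 2 ≤
      240000 * (K * sig a y) := by
  have := h.r4
  have := h.rk
  have hs := h.sep hN
  have e : (AL.cn N u v j x).2 = v l := by rcases hx with rfl | rfl <;> rfl
  rw [Wf_Tl _ (hs.cn_dia x)]
  refine (mul_le_mul_of_nonneg_left (Tl_le _ _ _ (AL.Sep.cn_cnr x)) (Nat.cast_nonneg _)).trans ?_
  rw [e, cn_nt u v j N hy]
  refine (hO.1 y hy).pw (AL.Sep.cn_cnr y) (by rw [← cn_nt u v j N hy]; exact hs.cn_dia y) (by lia)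
    (by have := bx_l1 (h.vin l).1; lia) (fun f hf hb => ?_) fun hb => ?_
  · obtain ⟨i, rfl⟩ := (mem_srcs _).1 hf
    exact h.uv i l (bx_mono (by lia) hb)
  · cases y with
    | tp c => exact hy
    | src i => exact h.uv i l (bx_mono (by lia) hb)
    | lo l' => exact h1 (by rw [h.vv l' l (bx_mono (by lia) hb)])
    | hi l' => exact h2 (by rw [h.vv l' l (bx_mono (by lia) hb)])

end

/-- The bound for the weighted kernels. -/
theorem KW_bd : ∃ C : ℝ, 0 < C ∧ ∀ (p : Pts) (a K δ : ℝ) (k r N : ℕ),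
    Lt (fun i => fl a (p.x i)) (fun l => fl a (p.y l)) p.j k r → 200 * k ≤ N →
    OutA (fun i => fl a (p.x i)) (fun l => fl a (p.y l)) p.j r N a K → 0 < a → 0 ≤ K → 0 < δ →
    δ ≤ a * r → ∀ x y, [x, y].Sublist (AL.lbs (n := p.n) (univ : Finset (Fin p.m)).toList []) →
    KW p a N x y ^ 2 ≤ C * K * (1 + δ⁻¹) := by
  classical
  obtain ⟨C, hC, hd⟩ := dT_bd
  refine ⟨C + 240000, by positivity, fun p a K δ k r N h hN hO ha hK hδ hr x y hxy => ?_⟩
  set u : Fin p.n → Site := fun i => fl a (p.x i) with hu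
  set v : Fin p.m → Site := fun l => fl a (p.y l) with hv
  have hnd := AL.lbs_nodup (n := p.n) (nodup_toList (univ : Finset (Fin p.m))) List.nodup_nil
  have hne : x ≠ y := by
    rintro rfl
    have := hnd.sublist hxy
    simp at this
  have hx := nt_of_mem (hxy.subset (a := x) (by simp))
  have hy := nt_of_mem (hxy.subset (a := y) (by simp))
  have hs := h.sep hN
  have r4 := h.r4
  have rk := h.rk
  have hδ' : 0 < δ⁻¹ := inv_pos.2 hδ
  have hw : ∀ z : Lb p.n p.m, wt p a z ^ 2 * sig a z = 1 := by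
    intro z
    have : (√a)⁻¹ ^ 2 * a = 1 := by
      rw [inv_pow, Real.sq_sqrt ha.le, inv_mul_cancel₀ ha.ne']
    cases z <;> simp only [P144P.wt, sig] <;> first | exact this | norm_num
  have fin : ∀ {t D : ℝ}, 0 ≤ D → D ≤ C + 240000 → r * t ^ 2 ≤ D * (K * sig a y) → sig a x = a →
      (wt p a x * wt p a y * t) ^ 2 ≤ (C + 240000) * K * (1 + δ⁻¹) := by
    intro t D hD hD' ht hxa
    have b2 : δ * t ^ 2 ≤ a * (D * (K * sig a y)) := by
      calc δ * t ^ 2 ≤ a * r * t ^ 2 := mul_le_mul_of_nonneg_right hr (sq_nonneg _)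
        _ = a * (r * t ^ 2) := by ring
        _ ≤ _ := mul_le_mul_of_nonneg_left ht ha.le
    have b3 : t ^ 2 ≤ δ⁻¹ * (a * (D * (K * sig a y))) := by
      rw [le_inv_mul_iff₀ hδ]; exact b2
    have e1 := hw x
    rw [hxa] at e1
    rw [mul_pow, mul_pow]
    calc _ ≤ wt p a x ^ 2 * wt p a y ^ 2 * (δ⁻¹ * (a * (D * (K * sig a y)))) :=
          mul_le_mul_of_nonneg_left b3 (by positivity)
      _ = D * K * δ⁻¹ * ((wt p a x ^ 2 * a) * (wt p a y ^ 2 * sig a y)) := by ring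
      _ ≤ _ := by
          rw [e1, hw, mul_one, mul_one]
          gcongr
          linarith
  have wl2 : ∀ z : Lb p.n p.m, AL.wl u v p.j z ^ 2 = 1 := fun z => by
    rw [pow_two]
    exact AL.wl_sq p u v z
  by_cases h1 : ∃ l, x = .lo l ∧ y = .hi l
  · obtain ⟨l, rfl, rfl⟩ := h1
    have e : (((univ : Finset (Fin p.m)).toList.map fun l' => if (Lb.lo l : Lb p.n p.m) = Lb.lo l' ∧
        (Lb.hi l : Lb p.n p.m) = Lb.hi l' then tN p a N l' else 0).sum) = tN p a N l := by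
      rw [Finset.sum_map_toList, sum_eq_single l]
      · exact if_pos ⟨rfl, rfl⟩
      · intro l' _ hl'
        refine if_neg fun hh => hl' ?_
        have := hh.1
        injection this with this
        exact this.symm
      · exact fun h => absurd (mem_univ l) h
    have e2 : AL.KK N u v p.j (.lo l) (.hi l) - tN p a N l =
        AL.ep (AL.eLo (v l)) (AL.eHi (v l) (p.j l)) *
          dT N (AL.fcs (AL.srcs u)) (AL.eHi (v l) (p.j l)) (v l, v l) := by
      have d0 : (AL.eLo (v l)).1 ∈ dia N := hs.cn_dia (j := p.j) (.lo l)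
      show 1 * AL.sk (AL.srcs u) (v l) (p.j l) * AL.Wf (dia N) (AL.fcs (AL.srcs u))
        [AL.eLo (v l), AL.eHi (v l) (p.j l)] - AL.ep (AL.eLo (v l)) (AL.eHi (v l) (p.j l)) *
          AL.Wf (dia N) 0 [AL.eLo (v l), AL.eHi (v l) (p.j l)] = _
      rw [sk_eq, Wf_Tl _ d0, Wf_Tl _ d0]
      unfold dT
      simp only [AL.eLo, AL.eHi]
      ring
    unfold KW AL.cenK
    have e3 : ∀ (P : Fin p.m → Prop) (d d' : DecidablePred P) (t : Fin p.m → ℝ),
        (fun l' => @ite _ (P l') (d l') (t l') 0) = fun l' => @ite _ (P l') (d' l') (t l') 0 :=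
      fun P d d' t => by congr!
    rw [e3 _ _ _ _, e, e2]
    refine fin hC.le (by linarith) ?_ rfl
    rw [mul_pow, pow_two (AL.ep _ _), AL.ep_sq, one_mul]
    refine hd N r _ (AL.eHi (v l) (p.j l)) _ (AL.eHi_cnr _ _) (hs.cn_dia (j := p.j) (.hi l)) r4
      ?_ (fun f hf => ?_) (hO.1 (.hi l) trivial) (hO.2 l)
    · have := bx_l1 (h.vin l).1
      show |(v l).1| + |(v l).2| + _ ≤ _
      lia
    · obtain ⟨i, rfl⟩ := (mem_srcs _).1 hf
      exact h.uv i l
  have h2 : ∀ l, ¬ (x = .hi l ∧ y = .lo l) := by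
    rintro l ⟨rfl, rfl⟩
    refine AL.nodup_order hnd hxy ?_
    have : ∀ ks : List (Fin p.m), l ∈ ks →
        [(Lb.lo l : Lb p.n p.m), .hi l].Sublist (AL.flat Lb.lo Lb.hi ks) := by
      intro ks hk
      induction ks with
      | nil => simp at hk
      | cons l' ks ih =>
        rw [AL.flat_cons]
        rcases List.mem_cons.1 hk with rfl | h
        · exact ((List.nil_sublist _).cons_cons _).cons_cons _
        · exact ((ih h).cons _).cons _
    unfold AL.lbs
    exact ((this _ (mem_toList.2 (mem_univ l))).trans (List.sublist_append_left _ _)).trans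
      (List.sublist_append_right _ _)
  have e : KW p a N x y = wt p a x * wt p a y * AL.KK N u v p.j x y := by
    unfold KW AL.cenK
    rw [List.sum_eq_zero, sub_zero]
    intro t ht
    obtain ⟨l, _, rfl⟩ := List.mem_map.1 ht
    exact if_neg fun hh => h1 ⟨l, hh⟩
  have e' : ∀ z w, AL.KK N u v p.j z w ^ 2 =
      AL.Wf (dia N) (AL.fcs (AL.srcs u)) [AL.cn N u v p.j z, AL.cn N u v p.j w] ^ 2 := fun z w => by
    unfold AL.KK
    rw [mul_pow, mul_pow, wl2, wl2, one_mul, one_mul]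
  rw [e]
  have en : ∀ l, x = .lo l ∨ x = .hi l → (wt p a x * wt p a y * AL.KK N u v p.j x y) ^ 2 ≤
      (C + 240000) * K * (1 + δ⁻¹) := fun l hl => by
    refine fin (D := 240000) (by norm_num) (by linarith) ?_ (by rcases hl with rfl | rfl <;> rfl)
    rw [e']
    refine h.en hN hO hl hy ?_ ?_
    · rintro rfl
      rcases hl with rfl | rfl
      · exact hne rfl
      · exact h2 l ⟨rfl, rfl⟩
    · rintro rfl
      rcases hl with rfl | rfl
      · exact h1 ⟨l, rfl, rfl⟩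
      · exact hne rfl
  cases x with
  | tp c => exact absurd hx id
  | lo l => exact en l (Or.inl rfl)
  | hi l => exact en l (Or.inr rfl)
  | src i =>
    have sw : ∀ l, y = .lo l ∨ y = .hi l →
        (wt p a (.src i) * wt p a y * AL.KK N u v p.j (.src i) y) ^ 2 ≤
          (C + 240000) * K * (1 + δ⁻¹) := fun l hl => by
      have k1 := h.en hN hO hl (y := .src i) trivial (by simp) (by simp)
      rw [AL.Wf_swap _ _ (AL.Sep.cn_cnr _) (AL.Sep.cn_cnr _)
        (fun hh => hne (hs.cn_inj (by lia) hh).symm), neg_sq, ← e'] at k1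
      have b2 : δ * AL.KK N u v p.j (.src i) y ^ 2 ≤ a * (240000 * K) := by
        calc _ ≤ a * r * AL.KK N u v p.j (.src i) y ^ 2 :=
              mul_le_mul_of_nonneg_right hr (sq_nonneg _)
          _ = a * (r * AL.KK N u v p.j (.src i) y ^ 2) := by ring
          _ ≤ _ := mul_le_mul_of_nonneg_left (by simpa [sig] using k1) ha.le
      have b3 : AL.KK N u v p.j (.src i) y ^ 2 ≤ δ⁻¹ * (a * (240000 * K)) := by
        rw [le_inv_mul_iff₀ hδ]; exact b2
      have e1 := hw y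
      have e2 : sig a y = a := by rcases hl with rfl | rfl <;> rfl
      rw [e2] at e1
      have e3 : wt p a (.src i) = 1 := rfl
      rw [e3, one_mul, mul_pow]
      calc _ ≤ wt p a y ^ 2 * (δ⁻¹ * (a * (240000 * K))) :=
            mul_le_mul_of_nonneg_left b3 (by positivity)
        _ = 240000 * K * δ⁻¹ * (wt p a y ^ 2 * a) := by ring
        _ ≤ _ := by
            rw [e1, mul_one]
            gcongr
            · linarith
            · linarith
    cases y with
    | tp c => exact absurd hy id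
    | lo l => exact sw l (Or.inl rfl)
    | hi l => exact sw l (Or.inr rfl)
    | src i' =>
      have k1 := hO.1 (.src i') trivial (u i) 0 {u i} fun z hz => by
        rw [mem_singleton] at hz
        subst hz
        exact ⟨self_mem_bx _ _, fun hb => hne (by rw [h.uu i i' (bx_mono (by lia) hb)])⟩
      rw [sum_singleton] at k1
      have k2 := Tl_le N (AL.fcs (AL.srcs u)) (u i', u i') (c := (u i, u i))
        (AL.mem_cnr.2 (Or.inl rfl))
      have k3 : AL.KK N u v p.j (.src i) (.src i') ^ 2 ≤ K * 2 := by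
        rw [e', Wf_Tl _ (hs.cn_dia _)]
        refine k2.trans (k1.trans (le_of_eq ?_))
        simp [sig]
      show (1 * 1 * _) ^ 2 ≤ _
      rw [one_mul, one_mul]
      nlinarith [mul_nonneg hC.le hK, mul_nonneg (mul_nonneg hC.le hK) hδ'.le,
        mul_nonneg hK hδ'.le]

/-- The bound for the correlation of the disorders. -/
theorem MM_bd : ∃ C : ℝ, 0 < C ∧ ∃ r₀ : ℕ, ∀ (n : ℕ) (u : Fin n → Site) (Λ : Finset Site) (r : ℕ),
    r₀ ≤ r → (∀ i, bx (u i) r ⊆ Λ) → (∀ i i', u i ∈ bx (u i') (2 * r) → i = i') →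
    H436.MM Λ (AL.fcs (AL.srcs u)) ≤ (C * (r : ℝ) ^ (-(1 / 8) : ℝ)) ^ n := by
  obtain ⟨C, hC, r₀, h0⟩ := H436.M1_bound one_pos (H365.merge one_pos)
  refine ⟨C, hC, r₀, fun n u Λ r hr h1 h2 => ?_⟩
  have sub : ∀ i w, w ∈ (dia r).map (H436.tr (u i)).toEmbedding → w ∈ bx (u i) r := fun i w hw => by
    have := H436.mem_dia_tr.1 hw
    unfold H436.d1 at this
    rw [mem_bx]
    rcases abs_cases (w.1 - (u i).1) with a1 | a1 <;>
      rcases abs_cases (w.2 - (u i).2) with a2 | a2 <;> lia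
  have k1 := H436.MM_le_prod univ (Λ := Λ) (fun i => (dia r).map (H436.tr (u i)).toEmbedding)
    (fun i _ w hw => h1 i (sub i w hw)) (fun i _ i' _ hne => by
      rw [Finset.disjoint_left]
      intro w a1 a2
      have b1 := sub i w a1
      have b2 := sub i' w a2
      refine hne (h2 i i' ?_)
      rw [mem_bx] at b1 b2 ⊢
      push_cast
      lia) (AL.fcs (AL.srcs u))
  have hinj : Function.Injective u := fun i i' e => h2 i i' (by rw [e]; exact self_mem_bx _ _)
  have k2 : ∀ i ∈ (univ : Finset (Fin n)), H436.MM ((dia r).map (H436.tr (u i)).toEmbedding)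
      (AL.fcs (AL.srcs u)) = H436.MM (dia r) {0} := by
    intro i _
    obtain ⟨R', e⟩ := Multiset.exists_cons_of_mem ((mem_srcs u).2 ⟨i, rfl⟩)
    have hnd := nodup_srcs u hinj
    have hm : ∀ f ∈ R', ∃ i', u i' = f := fun f hf =>
      (mem_srcs u).1 (e ▸ Multiset.mem_cons_of_mem hf)
    rw [e] at hnd ⊢
    rw [← Multiset.singleton_add, add_comm, H436.MM_out_all, H436.MM_one_tr]
    intro f hf
    obtain ⟨i', rfl⟩ := hm f hf
    refine H436.out_dia ?_
    by_contra hh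
    have : i' = i := h2 i' i (by
      unfold H436.d1 at hh
      rw [mem_bx]
      push_cast
      rcases abs_cases ((u i').1 - (u i).1) with a1 | a1 <;>
        rcases abs_cases ((u i').2 - (u i).2) with a2 | a2 <;> lia)
    subst this
    exact (Multiset.nodup_cons.1 hnd).1 hf
  rw [prod_congr rfl k2, prod_const, card_univ, Fintype.card_fin] at k1
  exact k1.trans (pow_le_pow_left₀ (H436.MM_pos _ _).le (h0 r hr) _)

end Vale.Agent.N144.P
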