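import Vale.Agent.N144.P.Lat
import Vale.Agent.P144P.PlaneC
import Vale.Agent.N144.C.Defs

/-!
The correlations hardly depend on the size of the diamond, along moving points.
-/

namespace Vale.Agent.N144.P

open Finset Filter Topology Vale.Agent.P144 Vale.Agent.P144P Vale.Agent.N144.C
open Vale.Agent.P144.H170 (Pt bx mem_bx bx_mono self_mem_bx rM lap pt)
open Vale.Agent.P144.H436 (nn MM)
open Vale.Agent.P144.H135 (Geo BD Ann CT nb bA bB bC bE Pos)
open Vale.Agent.P144.AL (Lb lbs Pf SG srcs fcs Sep Rp)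

section

variable {ι : Type} {l : Filter ι} {a : ι → ℝ}

theorem flt_mv (ha : Tendsto a l (𝓝[>] 0)) {z : ι → ℂ} {z₀ : ℂ} (hz : Tendsto z l (𝓝 z₀)) :
    Tendsto (fun k => pt (a k) (fl (a k) (z k))) l (𝓝 z₀) := by
  have h1 : Tendsto (fun k => 2 * a k) l (𝓝 (2 * 0)) :=
    (ha.mono_right nhdsWithin_le_nhds).const_mul 2
  rw [mul_zero] at h1
  have h2 : Tendsto (fun k => pt (a k) (fl (a k) (z k)) - z k) l (𝓝 0) := by
    rw [tendsto_zero_iff_norm_tendsto_zero]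
    refine squeeze_zero' (Eventually.of_forall fun k => norm_nonneg _) ?_ h1
    filter_upwards [ha.eventually self_mem_nhdsWithin] with k hk
    exact H170.pt_fl_norm hk _
  simpa using h2.add hz

/-- The kernel with the source in the bulk. -/
theorem out_mv (ha : Tendsto a l (𝓝[>] 0)) {n : ℕ} {ζ : ι → Fin n → ℂ} {ζ₀ : Fin n → ℂ}
    {z : ι → ℂ} {z₀ : ℂ} (hζ : ∀ i, Tendsto (fun k => ζ k i) l (𝓝 (ζ₀ i)))
    (hz : Tendsto z l (𝓝 z₀)) (hinj : Function.Injective ζ₀) (hne : ∀ i, ζ₀ i ≠ z₀)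
    (h1 : ∀ i, ζ₀ i ∈ Dia) (h2 : z₀ ∈ Dia) {u0 : Site} (hu0 : u0 ∈ AL.cnr 0) {δ₁ : ℝ}
    (hδ₁ : 0 < δ₁) : ∃ K : ℝ, ∀ᶠ k in l, Out (nn (a k)) (fcs (srcs fun i => fl (a k) (ζ k i)))
      (fl (a k) (z k) + u0, fl (a k) (z k)) ⌊δ₁ / a k⌋₊ (K * a k) := by
  obtain ⟨δ0, G0⟩ := H135.exists_geo hinj h1 h2 hne
  set δ := min δ0 (δ₁ / 8) with hδ
  have d1 : δ ≤ δ0 := min_le_left _ _
  have d2 : δ ≤ δ₁ / 8 := min_le_right _ _
  have d0 : 0 < δ := lt_min G0.δ0 (by positivity)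
  set c : ι → AL.Cn := fun k => (fl (a k) (z k) + u0, fl (a k) (z k)) with hc
  set r : Fin n → ι → Site := fun i k => fl (a k) (ζ k i) with hr
  have hP : ∀ U : Filter ι, U ≤ l → Pos U a (fun k => nn (a k)) r ζ₀ c z₀ δ := fun U hU =>
    ⟨ha.mono_left hU, (AL.nn_lim.comp ha).mono_left hU, fun i => (flt_mv ha (hζ i)).mono_left hU,
      (flt_mv ha hz).mono_left hU, hinj, h1, d0, fun w hw => G0.ball w (by linarith),
      fun i => by linarith [G0.far i]⟩
  have hcn : ∀ k, (c k).1 ∈ AL.cnr (c k).2 := fun k => H135.cz_cnr hu0 (z k) (a k)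
  have hmem : ∀ᶠ k in l, (c k).1 ∈ dia (nn (a k)) := by
    filter_upwards [AL.in_ev ha (AL.nn_lim.comp ha) (flt_mv ha hz) h2 2] with k hk
    have h3 := hcn k
    have e : (c k).2 = fl (a k) (z k) := rfl
    rw [AL.mem_cnr, e] at h3
    have := abs_add_le (fl (a k) (z k)).1 1
    have := abs_add_le (fl (a k) (z k)).2 1
    rw [AL.mem_dia]
    rcases h3 with h | h | h | h <;> rw [h] <;> simp only [abs_one] at * <;> lia
  have hex : ∀ k, ∃ Hs Hf : Site → ℝ, (c k).1 ∈ dia (nn (a k)) →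
      BD (nn (a k)) (fun i => r i k) (c k)
      (bA (nn (a k)) (fun i => r i k) (c k)) (bB (nn (a k)) (fun i => r i k) (c k))
      (bC (nn (a k)) (fun i => r i k) (c k)) (bE (nn (a k)) (fun i => r i k) (c k)) Hs Hf := by
    intro k
    by_cases h : (c k).1 ∈ dia (nn (a k))
    · obtain ⟨Hs, Hf, hB⟩ := H135.exists_BD (nn (a k)) (fun i => r i k) (c k) (hcn k) h
      exact ⟨Hs, Hf, fun _ => hB⟩
    · exact ⟨0, 0, fun h' => absurd h' h⟩
  choose Hs Hf hB using hex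
  have hB' := hmem.mono fun k hk => hB k hk
  obtain ⟨QA, QB, QC, QE, κ, K⟩ := H135.exists_ker u0 hu0
  obtain ⟨Λ, hΛ, hA⟩ := ultra_bdd (l := l)
    (P := fun s k => 0 < a k ∧ Ann δ (a k) (c k) (Hs k) (Hf k) (s * a k))
    (fun s t k hst h => ⟨h.1, fun x h1 h2 =>
      ⟨(h.2 x h1 h2).1.trans (mul_le_mul_of_nonneg_right hst h.1.le),
        (h.2 x h1 h2).2.trans (mul_le_mul_of_nonneg_right hst h.1.le)⟩⟩)
    (fun U hU => by
      obtain ⟨s, hs, h⟩ := H135.apriori (hP U hU) (hB'.filter_mono hU) K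
        (Eventually.of_forall fun a => rfl)
      exact ⟨s, hs, ((hP U hU).apos).and h⟩)
  have hm := H135.masses (hP l le_rfl) hB' (L := fun k => Λ * a k)
    (hA.mono fun k h => mul_pos hΛ h.1) (hA.mono fun k h => h.2)
  refine ⟨1152 * 80000 * Λ, ?_⟩
  filter_upwards [hB', hm, (hP l le_rfl).apos, (hP l le_rfl).asmall d0] with k k2 k1 k0 k4 x s T hT
  have hR : fcs (srcs fun i => fl (a k) (ζ k i)) = rM fun i => r i k := by
    unfold AL.fcs AL.srcs
    rw [List.map_map]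
    rfl
  have n0 : 0 < nb δ (a k) := H135.nb_pos k0 k4
  have hnb : 8 * nb δ (a k) ≤ ⌊δ₁ / a k⌋₊ := by
    refine Nat.le_floor ?_
    rw [le_div_iff₀ k0]
    have := H135.nb_le d0 k0
    push_cast
    linarith
  have hf0 : ∀ x ∉ dia (nn (a k)), Hf k x = 0 := fun x hx =>
    k2.spr.Hf_zero k2.isH (v := x) (by simp [AL.mem_cnr]) hx
  have e0 : ∀ x ∉ bx (c k).2 (4 * nb δ (a k)), 1 - CT (c k).2 (2 * nb δ (a k)) x = 1 := by
    intro x hx
    rw [H135.CT_zero (by lia) fun h' => hx (bx_mono (by lia) h'), sub_zero]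
  have key := H135.sum_sq_out k2.spr k2.isH (c := (c k).2) (m := 4 * nb δ (a k))
    (U := fun x => (1 - CT (c k).2 (2 * nb δ (a k)) x) * Hs k x)
    (W := fun x => (1 - CT (c k).2 (2 * nb δ (a k)) x) * Hf k x)
    (fun x hx => by simp only [k2.isH.out x hx, mul_zero])
    (fun x hx => by simp only [hf0 x hx, mul_zero])
    (fun x hx => by simp only [e0 x hx, one_mul]) (fun x hx => by simp only [e0 x hx, one_mul])
    (M := 80000 * (Λ * a k)) (fun T => (k1 T).1) (fun T => (k1 T).2) x s T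
    fun y hy => ⟨(hT y hy).1, fun hb => (hT y hy).2 (bx_mono (by lia) hb)⟩
  refine le_trans (le_of_eq (sum_congr rfl fun y _ => ?_)) (key.trans (le_of_eq (by ring)))
  rw [kf_sq, hR]
  rfl

/-- The limit points are small. -/
structure Sl (p : Pts) (L : ℝ) : Prop where
  d : Dist p
  L0 : 0 < L
  L1 : 1000 * L ≤ 1
  x : ∀ i, ‖p.x i‖ < L / 2
  y : ∀ i, ‖p.y i‖ < L / 2

variable {p : Pts} {x : ι → Fin p.n → ℂ} {y : ι → Fin p.m → ℂ} {L : ℝ} (h : Sl p L)
  (hm : Mv l a p x y)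

include h hm

theorem Sl.lt : ∃ δ : ℝ, 0 < δ ∧ ∀ᶠ k in l, Lt (fun i => fl (a k) (x k i))
    (fun i => fl (a k) (y k i)) p.j (sc L (a k)) ⌊δ / a k⌋₊ ∧ δ / 2 ≤ a k * ⌊δ / a k⌋₊ := by
  have key : ∀ z w : ℂ, ∀ᶠ δ in 𝓝[>] (0 : ℝ), ‖z - w‖ ≤ 142 * δ → z = w := fun z w => by
    by_cases e : z = w
    · exact Eventually.of_forall fun _ _ => e
    · have h0 : 0 < ‖z - w‖ := norm_pos_iff.2 (sub_ne_zero.2 e)
      filter_upwards [ev_le (c := ‖z - w‖ / 200) (by positivity)] with δ hδ hh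
      linarith [hδ.2]
  obtain ⟨δ, ⟨hδ, hL⟩, h1⟩ := ((ev_le (half_pos h.L0)).and (eventually_all.2 fun s =>
    eventually_all.2 fun t => key (Sum.elim p.x p.y s) (Sum.elim p.x p.y t))).exists
  have ht : ∀ s, Tendsto (fun k => Sum.elim (x k) (y k) s) l (𝓝 (Sum.elim p.x p.y s)) := fun s => by
    rcases s with s | s
    · exact hm.hx s
    · exact hm.hy s
  have h2 : ∀ s t, ∀ᶠ k in l, ‖Sum.elim (x k) (y k) s - Sum.elim (x k) (y k) t‖ ≤ 142 * δ →
      s = t := fun s t => by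
    by_cases e : s = t
    · exact Eventually.of_forall fun _ _ => e
    · have h3 : 142 * δ < ‖Sum.elim p.x p.y s - Sum.elim p.x p.y t‖ :=
        not_le.1 fun hh => e (h.d (h1 s t hh))
      filter_upwards [((ht s).sub (ht t)).norm.eventually_const_lt h3] with k hk hh
      exact absurd hh (not_le.2 hk)
  refine ⟨δ, hδ, ?_⟩
  filter_upwards [hm.a0.eventually (ev_le (c := δ / 4) (by positivity)),
    eventually_all.2 fun s => eventually_all.2 (h2 s),
    eventually_all.2 fun i => (hm.hx i).norm.eventually_lt_const (h.x i),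
    eventually_all.2 fun i => (hm.hy i).norm.eventually_lt_const (h.y i)] with k ⟨ha, ha'⟩ k1 k2 k3
  generalize a k = a at ha ha'
  have haL : a ≤ L / 4 := by linarith
  have r1 : a * ⌊δ / a⌋₊ ≤ δ := by
    have := Nat.floor_le (a := δ / a) (by positivity)
    rw [le_div_iff₀ ha] at this
    linarith
  have r2 : δ / 2 ≤ a * ⌊δ / a⌋₊ := by
    have := Nat.lt_floor_add_one (δ / a)
    rw [div_lt_iff₀ ha] at this
    linarith
  have c1 : ∀ s t, fl a (Sum.elim (x k) (y k) s) ∈ bx (fl a (Sum.elim (x k) (y k) t))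
      (70 * ⌊δ / a⌋₊) → s = t := fun s t hi => by
    refine k1 s t ?_
    have := fl_near ha hi
    push_cast at this
    linarith
  refine ⟨⟨Nat.le_floor ?_, ?_, fun i => (fl_in ha haL (k2 i).le 0).1,
    fun i => fl_in ha haL (k3 i).le _, fun i i' e => Sum.inl_injective (c1 (.inl i) (.inl i') e),
    fun i i' e => Sum.inl_ne_inr (c1 (.inl i) (.inr i') e),
    fun i i' e => Sum.inr_injective (c1 (.inr i) (.inr i') e)⟩, r2⟩
  · rw [le_div_iff₀ ha]; push_cast; linarith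
  · have h3 : L / a ≤ sc L a := Nat.le_ceil _
    rw [div_le_iff₀ ha] at h3
    have h4 : ((2 * ⌊δ / a⌋₊ : ℕ) : ℝ) ≤ sc L a := by
      push_cast
      refine le_of_mul_le_mul_left ?_ ha
      linarith
    exact_mod_cast h4

theorem Sl.nn_sc {T : ℕ} (hT : 4 * L * T ≤ 1) : ∀ᶠ k in l, T * sc L (a k) ≤ nn (a k) := by
  filter_upwards [hm.a0.eventually (ev_le h.L0)] with k ⟨ha, ha'⟩
  refine le_of_sc ha ha' ?_
  have := nn_ge1 ha
  have := h.L1
  linarith

theorem Sl.out {δ : ℝ} (hδ : 0 < δ) (hl : ∀ᶠ k in l, Lt (fun i => fl (a k) (x k i))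
    (fun i => fl (a k) (y k i)) p.j (sc L (a k)) ⌊δ / a k⌋₊) : ∃ K : ℝ, 0 ≤ K ∧ ∀ᶠ k in l,
    OutA (fun i => fl (a k) (x k i)) (fun i => fl (a k) (y k i)) p.j ⌊δ / a k⌋₊ (nn (a k)) (a k)
      K := by
  have := lb_fin p.n p.m
  have hD : ∀ z : ℂ, ‖z‖ < L / 2 → z ∈ Dia := fun z hz => by
    have h1 := Complex.abs_re_le_norm z
    have h2 := Complex.abs_im_le_norm z
    have := h.L1
    have := h.L0
    show |z.re| + |z.im| < 1
    linarith
  have hd : ∀ j, dir j ∈ AL.cnr 0 := fun j => by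
    unfold dir
    rw [AL.mem_cnr]
    split_ifs <;> simp
  have hs : ∀ a : ℝ, 0 < a → ∀ y : Lb p.n p.m, 0 ≤ sig a y := fun a ha y => by
    cases y <;> simp [sig, ha.le]
  obtain ⟨K, hK, h1⟩ := unif (l := l) (fun (z : Lb p.n p.m) k K => 0 < a k → nt z →
      Out (nn (a k)) (fcs (srcs fun i => fl (a k) (x k i)))
        (AL.cn 0 (fun i => fl (a k) (x k i)) (fun i => fl (a k) (y k i)) p.j z) ⌊δ / a k⌋₊
        (K * sig (a k) z))
    (fun z k K K' hK hP ha hy =>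
      (hP ha hy).mono le_rfl (mul_le_mul_of_nonneg_right hK (hs _ ha z))) fun z => by
      cases z with
      | tp c => exact ⟨0, Eventually.of_forall fun _ _ hy => absurd hy id⟩
      | src i =>
        refine ⟨1152 * 5586, ?_⟩
        filter_upwards [hl, h.nn_sc hm (T := 200) (by have := h.L1; push_cast; linarith)] with k
          hl hn _ _
        show Out _ _ _ _ (_ * 1)
        rw [mul_one]
        exact hl.src hn i
      | lo i =>
        obtain ⟨K, hK⟩ := out_mv hm.a0 hm.hx (hm.hy i) h.d.xi (fun i' => h.d.xy i' i)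
          (fun i => hD _ (h.x i)) (hD _ (h.y i)) (AL.mem_cnr.2 (Or.inl rfl)) hδ
        refine ⟨K, hK.mono fun k hk _ _ => ?_⟩
        rw [add_zero] at hk
        exact hk
      | hi i =>
        obtain ⟨K, hK⟩ := out_mv hm.a0 hm.hx (hm.hy i) h.d.xi (fun i' => h.d.xy i' i)
          (fun i => hD _ (h.x i)) (hD _ (h.y i)) (hd (p.j i)) hδ
        exact ⟨K, hK.mono fun k hk _ _ => hk⟩
  obtain ⟨K', hK', h2⟩ := unif (l := l) (fun (i : Fin p.m) k K => 0 < a k →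
      Out (nn (a k)) 0 (AL.eHi (fl (a k) (y k i)) (p.j i)) ⌊δ / a k⌋₊ (K * a k))
    (fun y k K K' hK hP ha => (hP ha).mono le_rfl (mul_le_mul_of_nonneg_right hK ha.le))
    fun i => by
      obtain ⟨K, hK⟩ := out_mv (ζ := fun _ => Fin.elim0) (ζ₀ := Fin.elim0) hm.a0
        (fun i => i.elim0) (hm.hy i) (fun i => i.elim0) (fun i => i.elim0) (fun i => i.elim0)
        (hD _ (h.y i)) (hd (p.j i)) hδ
      exact ⟨K, hK.mono fun a ha _ => ha⟩
  refine ⟨K + K', by positivity, ?_⟩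
  filter_upwards [h1, h2, hm.a0.eventually self_mem_nhdsWithin] with k h1 h2 ha
  have ha : 0 < a k := ha
  exact ⟨fun z hy => (h1 z ha hy).mono le_rfl (mul_le_mul_of_nonneg_right (by linarith) (hs _ ha z)),
    fun i => (h2 i ha).mono le_rfl (mul_le_mul_of_nonneg_right (by linarith) ha.le)⟩

theorem Sl.ker {T₁ : ℕ} (hT₁ : 2 ≤ T₁) (c1 : CoreAt 1 T₁) (hL : 4 * L * T₁ ≤ 1) (hn : Even p.n) :
    ∃ B : ℝ, ∀ ε > (0 : ℝ), ∃ T : ℝ, ∀ᶠ k in l, ∀ N N' : ℕ, T ≤ a k * N → T ≤ a k * N' →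
    ∀ z w, [z, w].Sublist (lbs (n := p.n) (univ : Finset (Fin p.m)).toList []) →
      |KW (mv p (x k) (y k)) (a k) N z w| ≤ B ∧
      |KW (mv p (x k) (y k)) (a k) N' z w - KW (mv p (x k) (y k)) (a k) N z w| ≤ ε := by
  obtain ⟨δ, hδ, hl⟩ := h.lt hm
  obtain ⟨K₀, hK₀, ho⟩ := h.out hm hδ (hl.mono fun k hk => hk.1)
  obtain ⟨C, -, hb⟩ := KW_bd
  set K := 240000 * K₀ with hKd
  have hK : 0 ≤ K := by positivity
  have hδ' : 0 < δ / 2 := half_pos hδ
  refine ⟨√(C * K₀ * (1 + (δ / 2)⁻¹)) + (1 + p.m) * √(1 * K * (1 + (δ / 2)⁻¹)), fun ε hε => ?_⟩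
  have q0 : 0 < (1 + p.m : ℝ) := by positivity
  have q1 : 0 < 5 * K * (1 + (δ / 2)⁻¹) + 1 := by positivity
  obtain ⟨T₂, hT₂, c2⟩ := score.at (ε := (ε / (1 + p.m)) ^ 2 / (5 * K * (1 + (δ / 2)⁻¹) + 1))
    (by positivity)
  refine ⟨2 * L * (T₁ + T₂ : ℕ), ?_⟩
  filter_upwards [hl, ho, h.nn_sc hm (T := T₁) hL,
    h.nn_sc hm (T := 200) (by have := h.L1; push_cast; linarith), hm.a0.eventually (ev_le h.L0)]
    with k ⟨hl, hr'⟩ ho hn1 hn2 ⟨ha, haL⟩ N N' hN hN' z w hxy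
  have hN := le_of_sc ha haL hN
  have hN' := le_of_sc ha haL hN'
  rw [add_mul] at hN hN'
  have hx := nt_of_mem (hxy.subset (a := z) (by simp))
  have hy := nt_of_mem (hxy.subset (a := w) (by simp))
  have hr := hl.ref hn2 ho hn
  have hl' := hl.lat hn
  constructor
  · have k1 := KW_dif (p := mv p (x k) (y k)) hl' c1 hn1 (N' := N) (by lia) hr hT₁ zero_le_one hK ha
      hδ' hr' hx hy
    have k2 := Real.abs_le_sqrt (hb (mv p (x k) (y k)) _ _ _ _ _ _ hl hn2 ho ha hK₀ hδ' hr' z w hxy)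
    have k3 := abs_add_le (KW (mv p (x k) (y k)) (a k) (nn (a k)) z w)
      (KW (mv p (x k) (y k)) (a k) N z w - KW (mv p (x k) (y k)) (a k) (nn (a k)) z w)
    rw [add_sub_cancel] at k3
    exact k3.trans (add_le_add k2 k1)
  · have k1 := KW_dif (p := mv p (x k) (y k)) hl' c2 (N := N) (N' := N') (by lia) (by lia)
      (hl'.five c1 hn1 (by lia) hr) hT₂ (by positivity) (by positivity) ha hδ' hr' hx hy
    refine k1.trans ?_
    rw [← le_div_iff₀' q0]
    refine Real.sqrt_le_iff.2 ⟨by positivity, ?_⟩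
    rw [mul_assoc, div_mul_eq_mul_div, div_le_iff₀ q1]
    exact mul_le_mul_of_nonneg_left (by linarith) (by positivity)

theorem Sl.base : ∃ C : ℝ, 0 < C ∧ ∀ᶠ k in l, 0 < a k ∧ ∀ N : ℕ, 1 ≤ a k * N →
    Sep N (fun i => fl (a k) (x k i)) (fun i => fl (a k) (y k i)) ∧ 1 ≤ N ∧
      (a k ^ (-(1 / 8) : ℝ)) ^ p.n * MM (dia N) (Rp (mv p (x k) (y k)) (a k)) ≤ C := by
  obtain ⟨δ, hδ, hl⟩ := h.lt hm
  obtain ⟨C, hC, r₀, hb⟩ := MM_bd
  refine ⟨(C * (δ / 2) ^ (-(1 / 8) : ℝ)) ^ p.n, by positivity, ?_⟩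
  filter_upwards [hl, hm.a0.eventually (ev_le h.L0),
    hm.a0.eventually (ev_le (c := δ / (r₀ + 1)) (by positivity))]
    with k ⟨hl, hr⟩ ⟨ha, haL⟩ ⟨_, ha'⟩
  refine ⟨ha, fun N hN => ?_⟩
  have h1 : 200 * sc L (a k) ≤ N := le_of_sc ha haL (by have := h.L1; push_cast; linarith)
  have r4 := hl.r4
  have rk := hl.rk
  refine ⟨hl.sep h1, by lia, ?_⟩
  have h2 := hb p.n (fun i => fl (a k) (x k i)) (dia N) ⌊δ / a k⌋₊ (Nat.le_floor (by
      rw [le_div_iff₀ (by positivity)] at ha'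
      rw [le_div_iff₀ ha]
      linarith))
    (fun i w hw => bx_dia (bx_trans (hl.uin i) hw) (by lia))
    fun i i' hb => hl.uu i i' (bx_mono (by lia) hb)
  refine (mul_le_mul_of_nonneg_left h2 (by positivity)).trans ?_
  rw [← mul_pow]
  refine pow_le_pow_left₀ (by positivity) ?_ _
  rw [mul_left_comm, ← Real.mul_rpow ha.le (Nat.cast_nonneg _)]
  exact mul_le_mul_of_nonneg_left (Real.rpow_le_rpow_of_nonpos (half_pos hδ) hr (by norm_num)) hC.le

end

open Two in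
/-- The comparison of two diamonds at one mesh. -/
theorem two_pt {J : ℝ} (hJ : 0 < J) (p : Pts) (hev : Even p.n) {a C D η : ℝ} {N N' : ℕ}
    (ha : 0 < a) (hC : 0 < C) (hD0 : 0 < D) (hη0 : 0 < η) (h2 : N ≤ N')
    (h : ∀ M, N ≤ M → Sep M (fun i => fl a (p.x i)) (fun k => fl a (p.y k)) ∧ 1 ≤ M ∧
      (a ^ (-(1 / 8) : ℝ)) ^ p.n * MM (dia M) (Rp p a) ≤ C)
    (hP : ∀ l : List (Lb p.n p.m), l.Sublist (lbs (univ : Finset (Fin p.m)).toList []) →
      ∀ M : ℕ, N ≤ M → |Pf (KW p a N) l| ≤ D ∧ |Pf (KW p a M) l - Pf (KW p a N) l| ≤ D * η) :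
    |cN J a N' p - cN J a N p| ≤ C * D * (1 + D) * η := by
  set L := lbs (n := p.n) (univ : Finset (Fin p.m)).toList [] with hL
  set u : Fin p.n → Site := fun i => fl a (p.x i) with hu
  have hs1 : |SG [] (srcs u)| = 1 := by
    have := AL.SG_sq [] (srcs u)
    rw [← abs_mul_abs_self] at this
    nlinarith [abs_nonneg (SG [] (srcs u))]
  have hN := h N le_rfl
  have hN' := h N' h2
  set A : Finset Site := univ.map ⟨u, hN.1.u_inj⟩ with hA
  have hAv : A.val = Rp p a := by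
    unfold Rp fcs srcs
    rw [List.map_map]
    rfl
  have hsub : (lbs (n := p.n) ([] : List (Fin p.m)) []).Sublist L := by
    rw [hL]
    unfold lbs
    exact List.Sublist.append_left (by simp [AL.flat]) _
  have hrat := ratio hJ (A := A) (by rw [hA, card_map, card_univ, Fintype.card_fin]; exact hev)
    (δ := D * η) (N := N) (fun x hx => by
      obtain ⟨i, _, rfl⟩ := mem_map.1 hx
      exact hN.1.cn_dia (j := p.j) (Lb.src i))
    (fun M => SG [] (srcs u) * Pf (KW p a M) (lbs [] [])) (fun M hM => by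
      have hM' := h M hM
      have e := AL.base' (j := p.j) hJ hM'.1 hM'.2.1 List.nodup_nil List.nodup_nil
      rw [List.map_nil, List.append_nil] at e
      rw [AL.Pf_congr _ fun x y hxy => KW_src p a M hxy, hAv, ← mul_assoc]
      refine Eq.trans ?_ e
      unfold fcor
      refine congrArg _ (funext fun σ => ?_)
      have := AL.GG_eq (N := M) (u := u) ∅ σ
      rw [toList_empty] at this
      rw [this, hA, prod_map]
      simp)
    (fun M hM => by
      rw [← mul_sub, abs_mul, hs1, one_mul]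
      exact (hP _ hsub M hM).2) (dia N')
  rw [hAv] at hrat
  have hanti := H436.MM_anti (dia_mono h2) (Rp p a)
  have hpos : 0 < MM (dia N') (Rp p a) := H436.MM_pos _ _
  obtain ⟨p1, p2⟩ := hP L (List.Sublist.refl _) N' h2
  rw [cN_eq p hJ ha hN.1 hN.2.1, cN_eq p hJ ha hN'.1 hN'.2.1, ← hL]
  have g1 := hN.2.2
  have g2 := hN'.2.2
  have hw : 0 < (a ^ (-(1 / 8) : ℝ)) ^ p.n := by positivity
  generalize (a ^ (-(1 / 8) : ℝ)) ^ p.n = w at hw g1 g2 ⊢
  generalize MM (dia N) (Rp p a) = M at hrat hanti g1 ⊢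
  generalize MM (dia N') (Rp p a) = M' at hrat hanti hpos g2 ⊢
  generalize Pf (KW p a N) L = P at p1 p2 ⊢
  generalize Pf (KW p a N') L = P' at p2 ⊢
  have e : w * M' * (SG [] (srcs u) * P') - w * M * (SG [] (srcs u) * P) =
      SG [] (srcs u) * (w * M' * (P' - P) - w * (M - M') * P) := by ring
  rw [e, abs_mul, hs1, one_mul]
  have c1 : |w * M' * (P' - P)| ≤ C * (D * η) := by
    rw [abs_mul, abs_of_pos (mul_pos hw hpos)]
    exact mul_le_mul g2 p2 (abs_nonneg _) hC.le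
  have c2 : |w * (M - M') * P| ≤ D * η * C * D := by
    rw [abs_mul, abs_of_nonneg (mul_nonneg hw.le (sub_nonneg.2 hanti))]
    refine mul_le_mul ?_ p1 (abs_nonneg _) (by positivity)
    calc w * (M - M') ≤ w * (D * η * M) := mul_le_mul_of_nonneg_left (by linarith) hw.le
      _ = D * η * (w * M) := by ring
      _ ≤ D * η * C := mul_le_mul_of_nonneg_left g1 (by positivity)
  have c3 := abs_sub (w * M' * (P' - P)) (w * (M - M') * P)
  nlinarith

theorem two_small {J : ℝ} (hJ : 0 < J) : ∃ L : ℝ, 0 < L ∧ 1000 * L ≤ 1 ∧ ∀ p, Sl p L →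
    ∀ {ι : Type} {l : Filter ι} {a : ι → ℝ} {x : ι → Fin p.n → ℂ} {y : ι → Fin p.m → ℂ},
    Mv l a p x y → ∀ ε > (0 : ℝ), ∃ T : ℝ, ∀ᶠ k in l, ∀ N N' : ℕ, T ≤ a k * N → N ≤ N' →
      |cN J (a k) N' (mv p (x k) (y k)) - cN J (a k) N (mv p (x k) (y k))| ≤ ε := by
  obtain ⟨T₁, hT₁, c1⟩ := score.at one_pos
  have h0 : (0 : ℝ) < 1000 + 4 * T₁ := by positivity
  have h1 : (1000 + 4 * T₁ : ℝ) * (1000 + 4 * T₁ : ℝ)⁻¹ = 1 := mul_inv_cancel₀ h0.ne'
  have h2 : 0 < (1000 + 4 * T₁ : ℝ)⁻¹ := inv_pos.2 h0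
  generalize (1000 + 4 * T₁ : ℝ)⁻¹ = L₀ at h1 h2
  have h3 : 0 ≤ T₁ * L₀ := by positivity
  refine ⟨L₀, h2, by linarith, fun p h ι l a x y hm ε hε => ?_⟩
  obtain ⟨C, hC, hb⟩ := h.base hm
  set L := lbs (n := p.n) (univ : Finset (Fin p.m)).toList [] with hL
  by_cases hev : Even p.n
  swap
  · refine ⟨1, ?_⟩
    have hodd : ¬ Even L.length := by
      rw [hL, AL.lbs_length, List.length_nil, add_zero, Nat.even_add]
      exact fun h => hev (h.2 (even_two_mul _))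
    filter_upwards [hb] with k ⟨ha, h⟩ N N' h1 h2
    have h3 : 1 ≤ a k * N' := h1.trans (mul_le_mul_of_nonneg_left (by exact_mod_cast h2) ha.le)
    rw [Two.cN_eq (mv p (x k) (y k)) hJ ha (h N h1).1 (h N h1).2.1,
      Two.cN_eq (mv p (x k) (y k)) hJ ha (h N' h3).1 (h N' h3).2.1, AL.Pf_odd _ _ hodd,
      AL.Pf_odd _ _ hodd]
    simpa using hε.le
  obtain ⟨B, hB⟩ := h.ker hm hT₁ c1 (by linarith) hev
  obtain ⟨D, hD, hlip⟩ := Two.Pf_lip (α := Lb p.n p.m) (abs_nonneg B) L.length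
  have hD0 : 0 < D := by linarith
  set η : ℝ := min 1 (ε / (C * D * (1 + D))) with hη
  have hη0 : 0 < η := lt_min one_pos (by positivity)
  have hη1 : η ≤ 1 := min_le_left _ _
  have hη2 : C * D * (1 + D) * η ≤ ε := by
    rw [mul_comm, ← le_div_iff₀ (by positivity)]
    exact min_le_right _ _
  obtain ⟨T, hT⟩ := hB η hη0
  refine ⟨max 1 T, ?_⟩
  filter_upwards [hb, hT] with k ⟨ha, h⟩ hK N N' h1 h2
  have hge : ∀ M : ℕ, N ≤ M → 1 ≤ a k * M ∧ T ≤ a k * M := fun M hM =>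
    max_le_iff.1 (h1.trans (mul_le_mul_of_nonneg_left (by exact_mod_cast hM) ha.le))
  refine (two_pt hJ (mv p (x k) (y k)) hev ha hC hD0 hη0 h2 (fun M hM => h M (hge M hM).1)
    fun l hl M hM => ?_).trans hη2
  exact hlip l hl.length_le _ _ η hη0.le hη1 fun z w hxy =>
    (hK N M (hge N le_rfl).2 (hge M hM).2 z w (hxy.trans hl)).imp_left
      fun h => h.trans (le_abs_self B)

/-- The factor of a dilation. -/
noncomputable def dl (p : Pts) (R : ℝ) : ℝ := (R ^ (-(1 / 8) : ℝ)) ^ p.n * R⁻¹ ^ p.m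

theorem corr_dl {E : (Config → ℝ) → ℝ} (hE : ∀ c F, E (fun σ => c * F σ) = c * E F) (p : Pts)
    {a R : ℝ} (ha : 0 < a) (hR : 0 < R) : corr a E p = dl p R * corr (a / R) E (shr p R) := by
  have e1 : a ^ (-(1 / 8) : ℝ) = R ^ (-(1 / 8) : ℝ) * (a / R) ^ (-(1 / 8) : ℝ) := by
    rw [← Real.mul_rpow hR.le (div_pos ha hR).le, mul_div_cancel₀ _ hR.ne']
  have e2 : a⁻¹ = R⁻¹ * (a / R)⁻¹ := by field_simp
  unfold corr shr dl
  simp only [P144P.fl_div hR.ne']
  rw [← hE]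
  congr 1
  funext σ
  rw [e1, e2]
  simp only [prod_mul_distrib, prod_const, card_univ, Fintype.card_fin]
  ring

theorem cN_dl (J : ℝ) (N : ℕ) (p : Pts) {a R : ℝ} (ha : 0 < a) (hR : 0 < R) :
    cN J a N p = dl p R * cN J (a / R) N (shr p R) := by
  refine corr_dl (fun c F => ?_) p ha hR
  unfold gibbs P144.expect
  simp only [mul_assoc, ← Finset.mul_sum, mul_div_assoc]

theorem mv_shr {ι : Type} {l : Filter ι} {a : ι → ℝ} {p : Pts} {x : ι → Fin p.n → ℂ}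
    {y : ι → Fin p.m → ℂ} (h : Mv l a p x y) {R : ℝ} (hR : 0 < R) :
    Mv l (fun k => a k / R) (shr p R) (fun k i => x k i / R) fun k i => y k i / R :=
  ⟨(div_lim hR).comp h.a0, fun i => (h.hx i).div_const _, fun i => (h.hy i).div_const _⟩

/-- The finest family of moving points. -/
theorem mv_univ (p : Pts) : Mv (𝓝[>] (0 : ℝ) ×ˢ 𝓝 p.x ×ˢ 𝓝 p.y) (fun k => k.1) p
    (fun k => k.2.1) fun k => k.2.2 :=
  ⟨tendsto_fst, fun i => tendsto_pi_nhds.1 (tendsto_fst.comp tendsto_snd) i,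
    fun i => tendsto_pi_nhds.1 (tendsto_snd.comp tendsto_snd) i⟩

theorem mv_to {ι : Type} {l : Filter ι} {a : ι → ℝ} {p : Pts} {x : ι → Fin p.n → ℂ}
    {y : ι → Fin p.m → ℂ} (h : Mv l a p x y) :
    Tendsto (fun k => (a k, x k, y k)) l (𝓝[>] (0 : ℝ) ×ˢ 𝓝 p.x ×ˢ 𝓝 p.y) :=
  h.a0.prodMk ((tendsto_pi_nhds.2 h.hx).prodMk (tendsto_pi_nhds.2 h.hy))

theorem twoM : STwoM := by
  intro J hJ p hp ε hε
  obtain ⟨L, h0, h1, hk⟩ := two_small hJ
  have key : ∀ z : ℂ, ∀ᶠ R : ℝ in atTop, ‖z / R‖ < L / 2 := fun z => by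
    filter_upwards [eventually_gt_atTop 0, eventually_gt_atTop (‖z‖ / (L / 2))] with R r0 r1
    rw [norm_div, Complex.norm_real, Real.norm_eq_abs, abs_of_pos r0, div_lt_iff₀ r0]
    rwa [div_lt_iff₀' (by positivity)] at r1
  obtain ⟨R, hR, hx, hy⟩ := ((eventually_ge_atTop 1).and ((eventually_all.2 fun i =>
    key (p.x i)).and (eventually_all.2 fun l => key (p.y l)))).exists
  have r0 : 0 < R := by linarith
  obtain ⟨T, hT⟩ := hk (shr p R) ⟨hp.shr r0, h0, h1, hx, hy⟩ (mv_shr (mv_univ p) r0) ε hε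
  refine ⟨T * R, fun ι l a x y hm => ?_⟩
  filter_upwards [(mv_to hm).eventually hT, hm.a0.eventually self_mem_nhdsWithin] with k hT ha N N'
    hN hN'
  have k1 := hT N N' (by rwa [div_mul_eq_mul_div, le_div_iff₀ r0]) hN'
  rw [cN_dl J N _ ha r0, cN_dl J N' _ ha r0, ← mul_sub, abs_mul]
  refine (mul_le_of_le_one_left (abs_nonneg _) ?_).trans k1
  unfold dl
  rw [abs_of_pos (by positivity)]
  exact mul_le_one₀ (pow_le_one₀ (by positivity) (Real.rpow_le_one_of_one_le_of_nonpos hR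
    (by norm_num))) (by positivity) (pow_le_one₀ (by positivity) (inv_le_one_of_one_le₀ hR))

end Vale.Agent.N144.P
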